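import Mathlib

/-!
# P226, pool job OBT: at most `dim + 1` vectors with pairwise negative inner products
-/

namespace Vale.Agent.Lib.P226.H22

open Finset

/-- Among `finrank + 2` vectors of a finite-dimensional real inner product space, two
different ones have a nonnegative inner product. -/
theorem exists_nonneg_inner {V : Type*} [NormedAddCommGroup V] [InnerProductSpace ℝ V]
    [FiniteDimensional ℝ V] {m : ℕ} (z : Fin m → V) (hm : Module.finrank ℝ V + 2 ≤ m) :
    ∃ i j : Fin m, i ≠ j ∧ 0 ≤ inner ℝ (z i) (z j) := by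
  by_contra hcon
  have hneg : ∀ i j : Fin m, i ≠ j → inner ℝ (z i) (z j) < 0 := by
    intro i j hij
    by_contra h
    exact hcon ⟨i, j, hij, not_lt.1 h⟩
  obtain ⟨k, rfl⟩ : ∃ k, m = k + 1 := ⟨m - 1, by omega⟩
  have hk : Module.finrank ℝ V < k := by omega
  obtain ⟨w, hw⟩ : ∃ w : Fin k → V, w = fun i => z (Fin.castSucc i) := ⟨_, rfl⟩
  have hwl : ∀ i : Fin k, inner ℝ (w i) (z (Fin.last k)) < 0 := by
    intro i
    rw [hw]
    exact hneg _ _ (Fin.castSucc_lt_last i).ne
  have hwneg : ∀ i j : Fin k, i ≠ j → inner ℝ (w i) (w j) < 0 := by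
    intro i j hij
    rw [hw]
    exact hneg _ _ (fun h => hij (Fin.castSucc_injective k h))
  have hdep : ¬ LinearIndependent ℝ w := by
    intro hli
    have h1 := hli.fintype_card_le_finrank
    rw [Fintype.card_fin] at h1
    omega
  rw [Fintype.not_linearIndependent_iff] at hdep
  obtain ⟨g, hg, i0, hi0⟩ := hdep
  have key : ∀ h : Fin k → ℝ, (∀ i, 0 ≤ h i) → ∑ i, h i • w i = 0 → ∀ i, h i = 0 := by
    intro h hnn hsum i
    by_contra hi
    have hpos : 0 < h i := lt_of_le_of_ne (hnn i) (Ne.symm hi)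
    have h0 : inner ℝ (∑ j, h j • w j) (z (Fin.last k)) = 0 := by
      rw [hsum, inner_zero_left]
    rw [sum_inner] at h0
    have hterm : ∀ j : Fin k, inner ℝ (h j • w j) (z (Fin.last k)) ≤ 0 := by
      intro j
      rw [real_inner_smul_left]
      exact mul_nonpos_of_nonneg_of_nonpos (hnn j) (hwl j).le
    have hlt : inner ℝ (h i • w i) (z (Fin.last k)) < 0 := by
      rw [real_inner_smul_left]
      exact mul_neg_of_pos_of_neg hpos (hwl i)
    have e : inner ℝ (h i • w i) (z (Fin.last k)) +
        ∑ j ∈ (univ : Finset (Fin k)).erase i, inner ℝ (h j • w j) (z (Fin.last k)) =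
        ∑ j, inner ℝ (h j • w j) (z (Fin.last k)) :=
      Finset.add_sum_erase univ (fun j => inner ℝ (h j • w j) (z (Fin.last k))) (mem_univ i)
    have hrest : ∑ j ∈ (univ : Finset (Fin k)).erase i,
        inner ℝ (h j • w j) (z (Fin.last k)) ≤ 0 :=
      Finset.sum_nonpos (fun j _ => hterm j)
    linarith
  have hgp : ∀ i, 0 ≤ max (g i) 0 := fun i => le_max_right _ _
  have hgn : ∀ i, 0 ≤ max (-g i) 0 := fun i => le_max_right _ _
  have hsplit : ∀ i, g i = max (g i) 0 - max (-g i) 0 := by
    intro i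
    rcases le_total 0 (g i) with h | h
    · rw [max_eq_left h, max_eq_right (by linarith)]; ring
    · rw [max_eq_right h, max_eq_left (by linarith)]; ring
  have hprod : ∀ i, max (g i) 0 * max (-g i) 0 = 0 := by
    intro i
    rcases le_total 0 (g i) with h | h
    · rw [max_eq_right (by linarith : -g i ≤ 0), mul_zero]
    · rw [max_eq_right h, zero_mul]
  have huv : ∑ i, max (g i) 0 • w i = ∑ i, max (-g i) 0 • w i := by
    rw [← sub_eq_zero, ← Finset.sum_sub_distrib, ← hg]
    refine Finset.sum_congr rfl (fun i _ => ?_)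
    rw [← sub_smul, ← hsplit]
  have hinner : inner ℝ (∑ i, max (g i) 0 • w i) (∑ i, max (-g i) 0 • w i) ≤ 0 := by
    rw [sum_inner]
    refine Finset.sum_nonpos (fun i _ => ?_)
    rw [inner_sum]
    refine Finset.sum_nonpos (fun j _ => ?_)
    rw [real_inner_smul_left, real_inner_smul_right]
    by_cases hij : i = j
    · subst hij
      rw [← mul_assoc, hprod, zero_mul]
    · have h3 : max (-g j) 0 * inner ℝ (w i) (w j) ≤ 0 :=
        mul_nonpos_of_nonneg_of_nonpos (hgn j) (hwneg i j hij).le
      exact mul_nonpos_of_nonneg_of_nonpos (hgp i) h3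
  have hu0 : ∑ i, max (g i) 0 • w i = 0 := by
    rw [← huv] at hinner
    exact real_inner_self_nonpos.1 hinner
  have hv0 : ∑ i, max (-g i) 0 • w i = 0 := by rw [← huv]; exact hu0
  have h1 := key _ hgp hu0 i0
  have h2 := key _ hgn hv0 i0
  apply hi0
  rw [hsplit i0, h1, h2, sub_zero]

end Vale.Agent.Lib.P226.H22
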